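import Vale.Agent.P110.Basic

namespace Vale.Agent.P110

open Finset Metric

lemma isFlat_revSign {N : ℕ} {ε : ℝ} {a : Fin N → Bool} (h : IsFlat ε a) :
    IsFlat ε (revSign a) := by
  intro z hz
  rw [norm_littlewood_rev_circle a hz]
  exact h _ (by simp [hz])

lemma norm_le_on_unitBall {f : ℂ → ℂ} (hf : Differentiable ℂ f) {C : ℝ}
    (hC : ∀ z : ℂ, ‖z‖ = 1 → ‖f z‖ ≤ C) {z : ℂ} (hz : ‖z‖ ≤ 1) : ‖f z‖ ≤ C := by
  refine Complex.norm_le_of_forall_mem_frontier_norm_le (U := ball (0 : ℂ) 1) isBounded_ball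
    hf.diffContOnCl (fun w hw => hC w ?_) ?_
  · simpa [frontier_ball (0 : ℂ) one_ne_zero] using hw
  · simpa [closure_ball (0 : ℂ) one_ne_zero] using hz

lemma flat_bounds {N : ℕ} {ε : ℝ} (hN : 0 < N) {a : Fin N → Bool} (h : IsFlat ε a) {z : ℂ}
    (hz : ‖z‖ = 1) :
    (1 - ε) * Real.sqrt N ≤ ‖littlewood a z‖ ∧ ‖littlewood a z‖ ≤ (1 + ε) * Real.sqrt N := by
  have hs : 0 < Real.sqrt N := Real.sqrt_pos.2 (by exact_mod_cast hN)
  obtain ⟨h1, h2⟩ := abs_le.1 (h z hz)
  exact ⟨(le_div_iff₀ hs).1 (by linarith), (div_le_iff₀ hs).1 (by linarith)⟩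

/-- The Littlewood polynomial is bounded everywhere by its maximum on the circle. -/
lemma littlewood_norm_le {N : ℕ} {ε : ℝ} (hN : 0 < N) {a : Fin N → Bool} (h : IsFlat ε a)
    (z : ℂ) :
    ‖littlewood a z‖ ≤ (1 + ε) * Real.sqrt N * max 1 (‖z‖ ^ (N - 1)) := by
  have hC : 0 ≤ (1 + ε) * Real.sqrt N :=
    le_trans (norm_nonneg _) (flat_bounds hN h (z := 1) (by simp)).2
  rcases le_total ‖z‖ 1 with hz | hz
  · have h1 := norm_le_on_unitBall (differentiable_littlewood a)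
      (fun w hw => (flat_bounds hN h hw).2) hz
    exact h1.trans (le_mul_of_one_le_right hC (le_max_left _ _))
  · have hz0 : z ≠ 0 := by
      intro h0
      simp [h0] at hz
      linarith
    have h1 := norm_le_on_unitBall (differentiable_littlewood (revSign a))
      (fun w hw => (flat_bounds hN (isFlat_revSign h) hw).2) (z := z⁻¹)
      (by rw [norm_inv]; exact inv_le_one_of_one_le₀ hz)
    have h2 := littlewood_rev (revSign a) hz0
    rw [revSign_revSign] at h2
    rw [h2, norm_mul, norm_pow]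
    calc ‖z‖ ^ (N - 1) * ‖littlewood (revSign a) z⁻¹‖
        ≤ ‖z‖ ^ (N - 1) * ((1 + ε) * Real.sqrt N) := by gcongr
      _ ≤ (1 + ε) * Real.sqrt N * max 1 (‖z‖ ^ (N - 1)) := by
          rw [mul_comm]
          gcongr
          exact le_max_right _ _

/-- The function `P P* - N z^(N-1)` is small everywhere. -/
lemma defect_le {N : ℕ} {ε : ℝ} (hN : 0 < N) (hε : ε ≤ 1) {a : Fin N → Bool} (h : IsFlat ε a)
    (z : ℂ) :
    ‖littlewood a z * littlewood (revSign a) z - (N : ℂ) * z ^ (N - 1)‖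
      ≤ 3 * ε * N * max 1 ((‖z‖ ^ (N - 1)) ^ 2) := by
  set H : ℂ → ℂ := fun w => littlewood a w * littlewood (revSign a) w - (N : ℂ) * w ^ (N - 1)
  have hd : Differentiable ℂ H := by
    have := differentiable_littlewood a
    have := differentiable_littlewood (revSign a)
    fun_prop
  have hcirc : ∀ w : ℂ, ‖w‖ = 1 → ‖H w‖ ≤ 3 * ε * N := by
    intro w hw
    obtain ⟨hl, hu⟩ := flat_bounds hN h hw
    have he : 0 ≤ ε := by
      have := h w hw
      exact le_trans (abs_nonneg _) this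
    simp only [H, littlewood_mul_rev_circle a hw]
    rw [mul_comm ((N : ℂ)), ← mul_sub, norm_mul, norm_pow, hw, one_pow, one_mul]
    rw [show ((N : ℂ)) = (((N : ℝ)) : ℂ) by simp, ← Complex.ofReal_sub, Complex.norm_real,
      Real.norm_eq_abs]
    have hsq : Real.sqrt N ^ 2 = N := Real.sq_sqrt (by positivity)
    have hu2 : ‖littlewood a w‖ ^ 2 ≤ ((1 + ε) * Real.sqrt N) ^ 2 :=
      pow_le_pow_left₀ (norm_nonneg _) hu 2
    have hl2 : ((1 - ε) * Real.sqrt N) ^ 2 ≤ ‖littlewood a w‖ ^ 2 :=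
      pow_le_pow_left₀ (mul_nonneg (by linarith) (Real.sqrt_nonneg _)) hl 2
    rw [mul_pow, hsq] at hu2 hl2
    have hN' : (0 : ℝ) ≤ N := by positivity
    rw [abs_le]
    constructor <;> nlinarith [mul_nonneg he hN', mul_nonneg (mul_nonneg he (sub_nonneg.2 hε)) hN']
  have hC : 0 ≤ 3 * ε * N := le_trans (norm_nonneg _) (hcirc 1 (by simp))
  rcases le_total ‖z‖ 1 with hz | hz
  · exact (norm_le_on_unitBall hd hcirc hz).trans (le_mul_of_one_le_right hC (le_max_left _ _))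
  · have hz0 : z ≠ 0 := by
      intro h0
      simp [h0] at hz
      linarith
    have hsym : H z = (z ^ (N - 1)) ^ 2 * H z⁻¹ := by
      have h1 := littlewood_rev a hz0
      have h2 := littlewood_rev (revSign a) hz0
      rw [revSign_revSign] at h2
      have hp : z ^ (N - 1) * (z ^ (N - 1))⁻¹ = 1 := mul_inv_cancel₀ (pow_ne_zero _ hz0)
      simp only [H, h1, inv_pow]
      rw [h2]
      linear_combination ((N : ℂ) * z ^ (N - 1)) * hp
    have h1 := norm_le_on_unitBall hd hcirc (z := z⁻¹)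
      (by rw [norm_inv]; exact inv_le_one_of_one_le₀ hz)
    show ‖H z‖ ≤ _
    rw [hsym, norm_mul, norm_pow, norm_pow]
    calc (‖z‖ ^ (N - 1)) ^ 2 * ‖H z⁻¹‖ ≤ (‖z‖ ^ (N - 1)) ^ 2 * (3 * ε * N) := by gcongr
      _ ≤ 3 * ε * N * max 1 ((‖z‖ ^ (N - 1)) ^ 2) := by
          rw [mul_comm]
          gcongr
          exact le_max_right _ _

/-- Two-sided bounds in a thin annulus: in particular there is no zero there. -/
lemma annulus_bounds {N : ℕ} {ε R : ℝ} (hN : 0 < N) (hε0 : 0 ≤ ε) (hR : 0 ≤ R)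
    (hεR : 3 * ε * Real.exp (3 * R) ≤ 1 / 2)
    {a : Fin N → Bool} (h : IsFlat ε a) {z : ℂ}
    (hl : Real.exp (-R) ≤ ‖z‖ ^ (N - 1)) (hu : ‖z‖ ^ (N - 1) ≤ Real.exp R) :
    Real.exp (-2 * R) / 4 * Real.sqrt N ≤ ‖littlewood a z‖ ∧
      ‖littlewood a z‖ ≤ 2 * Real.exp R * Real.sqrt N := by
  have h3 : 1 ≤ Real.exp (3 * R) := Real.one_le_exp (by linarith)
  have hε : ε ≤ 1 := by nlinarith
  have hm : max 1 (‖z‖ ^ (N - 1)) ≤ Real.exp R := max_le (Real.one_le_exp hR) hu
  have up : ∀ b : Fin N → Bool, IsFlat ε b →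
      ‖littlewood b z‖ ≤ 2 * Real.exp R * Real.sqrt N := by
    intro b hb
    calc ‖littlewood b z‖ ≤ (1 + ε) * Real.sqrt N * max 1 (‖z‖ ^ (N - 1)) :=
          littlewood_norm_le hN hb z
      _ ≤ 2 * Real.sqrt N * Real.exp R := by gcongr; linarith
      _ = _ := by ring
  refine ⟨?_, up a h⟩
  have hd := defect_le hN hε h z
  have hm2 : max 1 ((‖z‖ ^ (N - 1)) ^ 2) ≤ Real.exp R ^ 2 :=
    max_le (one_le_pow₀ (Real.one_le_exp hR)) (pow_le_pow_left₀ (by positivity) hu 2)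
  have hprod : (N : ℝ) * Real.exp (-R) / 2 ≤ ‖littlewood a z‖ * ‖littlewood (revSign a) z‖ := by
    rw [← norm_mul]
    have h1 : ‖(N : ℂ) * z ^ (N - 1)‖ - ‖littlewood a z * littlewood (revSign a) z‖
        ≤ ‖littlewood a z * littlewood (revSign a) z - (N : ℂ) * z ^ (N - 1)‖ := by
      rw [norm_sub_rev]
      exact norm_sub_norm_le _ _
    have h2 : (N : ℝ) * Real.exp (-R) ≤ ‖(N : ℂ) * z ^ (N - 1)‖ := by
      rw [norm_mul, norm_pow, Complex.norm_natCast]
      gcongr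
    have h4 : 3 * ε * N * max 1 ((‖z‖ ^ (N - 1)) ^ 2) ≤ N * Real.exp (-R) / 2 := by
      calc 3 * ε * N * max 1 ((‖z‖ ^ (N - 1)) ^ 2) ≤ 3 * ε * N * Real.exp R ^ 2 := by gcongr
        _ = (3 * ε * Real.exp (3 * R)) * (N * Real.exp (-R)) := by
            rw [show 3 * R = R + R + R by ring, Real.exp_add, Real.exp_add, Real.exp_neg]
            field_simp
        _ ≤ 1 / 2 * (N * Real.exp (-R)) := by gcongr
        _ = _ := by ring
    linarith
  have hq := up (revSign a) (isFlat_revSign h)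
  have hs : 0 < Real.sqrt N := Real.sqrt_pos.2 (by exact_mod_cast hN)
  have hsq : Real.sqrt N * Real.sqrt N = N := Real.mul_self_sqrt (by positivity)
  by_contra hc
  push Not at hc
  have : ‖littlewood a z‖ * ‖littlewood (revSign a) z‖
      < (Real.exp (-2 * R) / 4 * Real.sqrt N) * (2 * Real.exp R * Real.sqrt N) :=
    lt_of_le_of_lt (mul_le_mul_of_nonneg_left hq (norm_nonneg _))
      (mul_lt_mul_of_pos_right hc (by positivity))
  have he : Real.exp (-2 * R) * Real.exp R = Real.exp (-R) := by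
    rw [← Real.exp_add]; ring_nf
  have : (Real.exp (-2 * R) / 4 * Real.sqrt N) * (2 * Real.exp R * Real.sqrt N)
      = N * Real.exp (-R) / 2 := by
    linear_combination (Real.sqrt N * Real.sqrt N / 2) * he + (Real.exp (-R) / 2) * hsq
  linarith

end Vale.Agent.P110
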