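import Mathlib

namespace Vale.Agent.P110

open Finset

/-- Sign attached to a Boolean. -/
def sgn (b : Bool) : ℂ := if b then 1 else -1

/-- The Littlewood polynomial with sign vector `a`, evaluated at `z`. -/
noncomputable def littlewood {N : ℕ} (a : Fin N → Bool) (z : ℂ) : ℂ :=
  ∑ k : Fin N, sgn (a k) * z ^ (k : ℕ)

/-- The modulus on the unit circle is within relative error `ε` of the square root of `N`. -/
def IsFlat (ε : ℝ) {N : ℕ} (a : Fin N → Bool) : Prop :=
  ∀ z : ℂ, ‖z‖ = 1 → |‖littlewood a z‖ / Real.sqrt N - 1| ≤ ε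

lemma conj_sgn (b : Bool) : (starRingEnd ℂ) (sgn b) = sgn b := by
  cases b <;> simp [sgn]

lemma differentiable_littlewood {N : ℕ} (a : Fin N → Bool) :
    Differentiable ℂ (littlewood a) := by
  unfold littlewood
  fun_prop

/-- Reversed sign vector. -/
def revSign {N : ℕ} (a : Fin N → Bool) : Fin N → Bool := fun k => a k.rev

lemma littlewood_rev {N : ℕ} (a : Fin N → Bool) {z : ℂ} (hz : z ≠ 0) :
    littlewood (revSign a) z = z ^ (N - 1) * littlewood a z⁻¹ := by
  unfold littlewood
  rw [mul_sum]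
  refine (Fintype.sum_equiv Fin.revPerm _ _ fun k => ?_).symm
  simp only [revSign, Fin.revPerm_apply, Fin.rev_rev]
  have hk : (k.rev : ℕ) = N - 1 - (k : ℕ) := by
    rw [Fin.val_rev]
    omega
  rw [hk, pow_sub₀ z hz (show (k : ℕ) ≤ N - 1 by omega), inv_pow]
  ring

lemma revSign_revSign {N : ℕ} (a : Fin N → Bool) : revSign (revSign a) = a := by
  funext k
  simp [revSign]

lemma conj_littlewood {N : ℕ} (a : Fin N → Bool) (z : ℂ) :
    (starRingEnd ℂ) (littlewood a z) = littlewood a ((starRingEnd ℂ) z) := by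
  simp [littlewood, map_sum, map_mul, map_pow, conj_sgn]

lemma littlewood_mul_rev_circle {N : ℕ} (a : Fin N → Bool) {z : ℂ} (hz : ‖z‖ = 1) :
    littlewood a z * littlewood (revSign a) z =
      z ^ (N - 1) * ((‖littlewood a z‖ ^ 2 : ℝ) : ℂ) := by
  have hz0 : z ≠ 0 := by
    intro h
    simp [h] at hz
  rw [littlewood_rev a hz0, Complex.inv_eq_conj hz, ← conj_littlewood]
  push_cast
  rw [← Complex.mul_conj']
  ring

lemma norm_littlewood_rev_circle {N : ℕ} (a : Fin N → Bool) {z : ℂ} (hz : ‖z‖ = 1) :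
    ‖littlewood (revSign a) z‖ = ‖littlewood a z⁻¹‖ := by
  have hz0 : z ≠ 0 := by
    intro h
    simp [h] at hz
  rw [littlewood_rev a hz0, norm_mul, norm_pow, hz, one_pow, one_mul]

end Vale.Agent.P110
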