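import Vale.Agent.P110.Windows

namespace Vale.Agent.P110

open Finset

lemma parseval {N : ℕ} (c : Fin N → ℂ) :
    ∑ j : Fin N, ‖∑ k : Fin N, c k * node N j ^ (k : ℕ)‖ ^ 2 = N * ∑ k, ‖c k‖ ^ 2 := by
  rcases Nat.eq_zero_or_pos N with rfl | hN
  · simp
  have hζ : IsPrimitiveRoot (node N 1) N := by
    rw [node, pow_one]
    exact Complex.isPrimitiveRoot_exp N hN.ne'
  set ζ := node N 1 with hζdef
  have hnode : ∀ j : ℕ, node N j = ζ ^ j := by
    intro j
    simp [node, hζdef]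
  have hn1 : ‖ζ‖ = 1 := hζ.norm'_eq_one hN.ne'
  have hζ0 : ζ ≠ 0 := hζ.ne_zero hN.ne'
  have horth : ∀ k l : Fin N,
      ∑ j : Fin N, (ζ ^ (j : ℕ)) ^ (k : ℕ) * (starRingEnd ℂ) ((ζ ^ (j : ℕ)) ^ (l : ℕ))
        = if k = l then (N : ℂ) else 0 := by
    intro k l
    have hterm : ∀ j : Fin N,
        (ζ ^ (j : ℕ)) ^ (k : ℕ) * (starRingEnd ℂ) ((ζ ^ (j : ℕ)) ^ (l : ℕ))
          = (ζ ^ (k : ℕ) * (ζ⁻¹) ^ (l : ℕ)) ^ (j : ℕ) := by
      intro j
      rw [map_pow, map_pow, ← Complex.inv_eq_conj hn1, mul_pow, pow_right_comm ζ,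
        pow_right_comm ζ⁻¹]
    simp only [hterm]
    split_ifs with hkl
    · subst hkl
      simp [← mul_pow, hζ0]
    · have hne : ζ ^ (k : ℕ) * (ζ⁻¹) ^ (l : ℕ) ≠ 1 := by
        intro h1
        apply hkl
        rw [inv_pow, mul_inv_eq_one₀ (pow_ne_zero _ hζ0)] at h1
        exact Fin.ext (hζ.pow_inj k.isLt l.isLt h1)
      rw [Fin.sum_univ_eq_sum_range (fun j => (ζ ^ (k : ℕ) * (ζ⁻¹) ^ (l : ℕ)) ^ j) N,
        geom_sum_eq hne, mul_pow, ← pow_mul, ← pow_mul, mul_comm (k : ℕ), mul_comm (l : ℕ),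
        pow_mul, pow_mul, hζ.pow_eq_one, inv_pow, hζ.pow_eq_one]
      simp
  apply Complex.ofReal_injective
  push_cast
  simp only [← Complex.mul_conj', hnode, map_sum, map_mul, sum_mul_sum]
  rw [mul_sum]
  calc ∑ j : Fin N, ∑ k, ∑ l, c k * (ζ ^ (j : ℕ)) ^ (k : ℕ) *
          ((starRingEnd ℂ) (c l) * (starRingEnd ℂ) ((ζ ^ (j : ℕ)) ^ (l : ℕ)))
      = ∑ k, ∑ l, c k * (starRingEnd ℂ) (c l) *
          ∑ j : Fin N, (ζ ^ (j : ℕ)) ^ (k : ℕ) *
            (starRingEnd ℂ) ((ζ ^ (j : ℕ)) ^ (l : ℕ)) := by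
        rw [sum_comm]
        refine sum_congr rfl fun k _ => ?_
        rw [sum_comm]
        refine sum_congr rfl fun l _ => ?_
        rw [mul_sum]
        refine sum_congr rfl fun j _ => ?_
        ring
    _ = ∑ k, (N : ℂ) * (c k * (starRingEnd ℂ) (c k)) := by
        simp only [horth, mul_ite, mul_zero, sum_ite_eq, mem_univ, if_true]
        refine sum_congr rfl fun k _ => ?_
        ring

/-- Close values at all roots of unity force few disagreements. -/
lemma card_disagree_le {N : ℕ} (hN : 0 < N) {δ : ℝ} (a b : Fin N → Bool)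
    (h : ∀ j : Fin N, ‖littlewood a (node N j) - littlewood b (node N j)‖ ≤ δ * Real.sqrt N) :
    ((univ.filter fun k => a k ≠ b k).card : ℝ) ≤ δ ^ 2 * N / 4 := by
  have h1 := parseval (fun k => sgn (a k) - sgn (b k))
  have hsum : ∑ k, ‖sgn (a k) - sgn (b k)‖ ^ 2 = 4 * ((univ.filter fun k => a k ≠ b k).card : ℝ) := by
    rw [card_filter, Nat.cast_sum, mul_sum]
    refine sum_congr rfl fun k _ => ?_
    cases a k <;> cases b k <;> norm_num [sgn]
  rw [hsum] at h1
  have h2 : ∑ j : Fin N, ‖∑ k : Fin N, (sgn (a k) - sgn (b k)) * node N j ^ (k : ℕ)‖ ^ 2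
      ≤ ∑ _j : Fin N, (δ * Real.sqrt N) ^ 2 := by
    refine sum_le_sum fun j _ => pow_le_pow_left₀ (norm_nonneg _) ?_ 2
    refine le_of_eq_of_le ?_ (h j)
    simp [littlewood, sub_mul]
  rw [h1, sum_const, card_univ, Fintype.card_fin, nsmul_eq_mul, mul_pow,
    Real.sq_sqrt (by positivity)] at h2
  have hNR : (0 : ℝ) < N := by exact_mod_cast hN
  have := le_of_mul_le_mul_left h2 hNR
  linarith

lemma card_small_subsets_le {N : ℕ} {p x : ℝ} (hx : 0 < x) (hx1 : x ≤ 1) :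
    ((univ.filter fun s : Finset (Fin N) => (s.card : ℝ) ≤ p).card : ℝ)
      ≤ x ^ (-p) * (1 + x) ^ N := by
  have h2 : (∑ s : Finset (Fin N), x ^ s.card) = (1 + x) ^ N := by
    have := Fintype.sum_pow_mul_eq_add_pow (Fin N) x 1
    simpa [add_comm] using this
  rw [← h2, mul_sum]
  calc ((univ.filter fun s : Finset (Fin N) => (s.card : ℝ) ≤ p).card : ℝ)
      = ∑ s ∈ univ.filter (fun s : Finset (Fin N) => (s.card : ℝ) ≤ p), (1 : ℝ) := by simp
    _ ≤ ∑ s ∈ univ.filter (fun s : Finset (Fin N) => (s.card : ℝ) ≤ p), x ^ (-p) * x ^ s.card := by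
        refine sum_le_sum fun s hs => ?_
        rw [← Real.rpow_natCast, ← Real.rpow_add hx]
        exact Real.one_le_rpow_of_pos_of_le_one_of_nonpos hx hx1
          (by linarith [(mem_filter.1 hs).2])
    _ ≤ ∑ s : Finset (Fin N), x ^ (-p) * x ^ s.card :=
        sum_le_sum_of_subset_of_nonneg (filter_subset _ _) (fun s _ _ => by positivity)

lemma card_le_of_code {N : ℕ} {K : Type*} [Fintype K] [DecidableEq K]
    (S : Finset (Fin N → Bool)) (code : (Fin N → Bool) → K) {p x : ℝ} (hx : 0 < x) (hx1 : x ≤ 1)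
    (hfib : ∀ a ∈ S, ∀ b ∈ S, code a = code b →
      ((univ.filter fun k => a k ≠ b k).card : ℝ) ≤ p) :
    (S.card : ℝ) ≤ Fintype.card K * (x ^ (-p) * (1 + x) ^ N) := by
  have hsplit : S.card = ∑ κ : K, (S.filter fun a => code a = κ).card :=
    card_eq_sum_card_fiberwise (fun a _ => mem_univ _)
  rw [hsplit, Nat.cast_sum]
  refine (sum_le_sum (g := fun _ => x ^ (-p) * (1 + x) ^ N) fun κ _ => ?_).trans ?_
  · rcases (S.filter fun a => code a = κ).eq_empty_or_nonempty with he | ⟨a₀, ha₀⟩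
    · rw [he]
      simp only [card_empty, Nat.cast_zero]
      positivity
    · refine le_trans ?_ (card_small_subsets_le (p := p) hx hx1)
      refine Nat.cast_le.2 (card_le_card_of_injOn (fun a => univ.filter fun k => a k ≠ a₀ k) ?_ ?_)
      · intro a ha
        simp only [mem_coe, mem_filter] at ha ha₀ ⊢
        exact ⟨mem_univ _, hfib a ha.1 a₀ ha₀.1 (ha.2.trans ha₀.2.symm)⟩
      · intro a _ b _ hab
        funext k
        have hk := congrArg (fun s : Finset (Fin N) => decide (k ∈ s)) hab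
        simp only [mem_filter, mem_univ, true_and] at hk
        revert hk
        cases a k <;> cases b k <;> cases a₀ k <;> simp
  · rw [sum_const, nsmul_eq_mul, card_univ]

/-- Grid index of a real number of absolute value at most `16` at mesh `d`. -/
noncomputable def gridIdx (d : ℝ) (L : ℕ) (t : ℝ) : Fin (L + 1) :=
  ⟨min ⌊(t + 16) / d⌋₊ L, by omega⟩

lemma abs_sub_lt_of_gridIdx_eq {d : ℝ} (hd : 0 < d) {L : ℕ} (hL : 32 ≤ d * L) {s t : ℝ}
    (hs : |s| ≤ 16) (ht : |t| ≤ 16) (h : gridIdx d L s = gridIdx d L t) : |s - t| ≤ d := by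
  obtain ⟨s1, s2⟩ := abs_le.1 hs
  obtain ⟨t1, t2⟩ := abs_le.1 ht
  have key : ∀ u : ℝ, |u| ≤ 16 → ⌊(u + 16) / d⌋₊ ≤ L := by
    intro u hu
    refine Nat.floor_le_of_le ?_
    rw [div_le_iff₀ hd]
    linarith [(abs_le.1 hu).2, mul_comm d (L : ℝ)]
  have h' := congrArg Fin.val h
  simp only [gridIdx, min_eq_left (key s hs), min_eq_left (key t ht)] at h'
  have a1 := Nat.floor_le (div_nonneg (by linarith : 0 ≤ s + 16) hd.le)
  have a2 := Nat.lt_floor_add_one ((s + 16) / d)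
  have b1 := Nat.floor_le (div_nonneg (by linarith : 0 ≤ t + 16) hd.le)
  have b2 := Nat.lt_floor_add_one ((t + 16) / d)
  rw [h'] at a1 a2
  have e : (s + 16) / d * d = s + 16 := by field_simp
  have e' : (t + 16) / d * d = t + 16 := by field_simp
  rw [abs_le]
  constructor <;> nlinarith

lemma norm_exp_sub_exp_le (u v : ℝ) :
    ‖Complex.exp ((u : ℂ) * Complex.I) - Complex.exp ((v : ℂ) * Complex.I)‖ ≤ |u - v| := by
  have : Complex.exp ((u : ℂ) * Complex.I) - Complex.exp ((v : ℂ) * Complex.I)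
      = Complex.exp ((v : ℂ) * Complex.I) * (Complex.exp (Complex.I * ((u - v : ℝ) : ℂ)) - 1) := by
    rw [mul_sub, ← Complex.exp_add, mul_one]
    congr 2
    push_cast
    ring
  rw [this, norm_mul, Complex.norm_exp_ofReal_mul_I, one_mul, ← Real.norm_eq_abs]
  exact Real.norm_exp_I_mul_ofReal_sub_one_le

/-- Cardinality bound for flat sign vectors with explicit parameters. -/
lemma card_flat_le {N m L : ℕ} (hN : 0 < N) (hm : 0 < m) {ε R d x δ : ℝ}
    (hε0 : 0 ≤ ε) (hε : ε ≤ 1 / 8) (hR : 4 ≤ R) (hεR : 3 * ε * Real.exp (3 * R) ≤ 1 / 2)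
    (hmR : 2 * Real.pi * m < R / 4) (hδ1 : δ ≤ 1)
    (hδ : 512 * (2 * Real.pi * m) ^ 2 / R + 11 * ε ≤ δ)
    (hd : 0 < d) (hdm : d * (1 + 2 * Real.pi * m) ≤ δ) (hL : 32 ≤ d * L)
    (hx : 0 < x) (hx1 : x ≤ 1) :
    (Nat.card {a : Fin N → Bool // IsFlat ε a} : ℝ) ≤
      ((L : ℝ) + 1) ^ (2 * (N / m + 1)) * (x ^ (-((3 * δ) ^ 2 * N / 4)) * (1 + x) ^ N) := by
  classical
  have hw : ∀ a : Fin N → Bool, ∀ w : ℕ, ∃ ab : ℝ × ℝ, IsFlat ε a →
      |ab.1| ≤ 16 ∧ |ab.2| ≤ 16 ∧ ∀ l : ℕ, l < m →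
      ‖littlewood a (node N (w * m + l)) -
          (Real.sqrt N : ℂ) *
            Complex.exp (((ab.1 + ab.2 * (2 * Real.pi * l) : ℝ) : ℂ) * Complex.I)‖
        ≤ δ * Real.sqrt N := by
    intro a w
    by_cases ha : IsFlat ε a
    · obtain ⟨α, β, hα, hβ, hab⟩ := phase_on_window hN hε0 hε hR hεR ha (w * m)
      refine ⟨(α, β), fun _ => ⟨by simp only; linarith, hβ, fun l hl => ?_⟩⟩
      have hlm : 2 * Real.pi * (l : ℝ) ≤ 2 * Real.pi * m := by gcongr
      have hsq : (2 * Real.pi * (l : ℝ)) ^ 2 ≤ (2 * Real.pi * m) ^ 2 :=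
        pow_le_pow_left₀ (by positivity) hlm 2
      have hdiv : (2 * Real.pi * (l : ℝ)) ^ 2 / R ≤ (2 * Real.pi * m) ^ 2 / R :=
        div_le_div_of_nonneg_right hsq (by linarith)
      have hnn : 0 ≤ (2 * Real.pi * (l : ℝ)) ^ 2 / R := by positivity
      rw [mul_div_assoc] at hδ
      refine (hab l (by linarith) ?_).trans ?_
      · rw [mul_div_assoc]
        linarith
      · rw [mul_div_assoc]
        gcongr
        linarith
    · exact ⟨(0, 0), fun h => absurd h ha⟩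
  choose ab hab using hw
  set W := N / m + 1
  set code : (Fin N → Bool) → (Fin W → Fin (L + 1) × Fin (L + 1)) := fun a w =>
    (gridIdx d L (ab a w).1, gridIdx d L (ab a w).2)
  have hfib : ∀ a ∈ univ.filter (fun a : Fin N → Bool => IsFlat ε a),
      ∀ b ∈ univ.filter (fun a : Fin N → Bool => IsFlat ε a), code a = code b →
      ((univ.filter fun k => a k ≠ b k).card : ℝ) ≤ (3 * δ) ^ 2 * N / 4 := by
    intro a ha b hb hcode
    simp only [mem_filter, mem_univ, true_and] at ha hb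
    refine card_disagree_le hN a b fun j => ?_
    set w : ℕ := (j : ℕ) / m
    set l : ℕ := (j : ℕ) % m
    have hwW : w < W := Nat.lt_succ_of_le (Nat.div_le_div_right j.isLt.le)
    have hj : w * m + l = j := Nat.div_add_mod' _ _
    obtain ⟨a1, a2, ea⟩ := hab a w ha
    obtain ⟨b1, b2, eb⟩ := hab b w hb
    have hl : l < m := Nat.mod_lt _ hm
    have ea' := ea l hl
    have eb' := eb l hl
    rw [hj] at ea' eb'
    have hc := congrFun hcode ⟨w, hwW⟩
    simp only [code, Prod.mk.injEq] at hc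
    have d1 := abs_sub_lt_of_gridIdx_eq hd hL a1 b1 hc.1
    have d2 := abs_sub_lt_of_gridIdx_eq hd hL a2 b2 hc.2
    set s : ℝ := 2 * Real.pi * (l : ℝ)
    have hs0 : 0 ≤ s := by positivity
    have hsm : s ≤ 2 * Real.pi * m := by
      simp only [s]
      gcongr
    set u := (ab a w).1 + (ab a w).2 * s
    set v := (ab b w).1 + (ab b w).2 * s
    have huv : |u - v| ≤ δ := by
      calc |u - v| = |((ab a w).1 - (ab b w).1) + ((ab a w).2 - (ab b w).2) * s| := by
            congr 1; simp only [u, v]; ring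
        _ ≤ |(ab a w).1 - (ab b w).1| + |((ab a w).2 - (ab b w).2)| * s :=
            (abs_add_le _ _).trans (by rw [abs_mul, abs_of_nonneg hs0])
        _ ≤ d + d * (2 * Real.pi * m) := by gcongr
        _ ≤ δ := by linarith
    set Mu := (Real.sqrt N : ℂ) * Complex.exp ((u : ℂ) * Complex.I)
    set Mv := (Real.sqrt N : ℂ) * Complex.exp ((v : ℂ) * Complex.I)
    have hM : ‖Mu - Mv‖ ≤ δ * Real.sqrt N := by
      simp only [Mu, Mv]
      rw [← mul_sub, norm_mul, Complex.norm_real, Real.norm_eq_abs,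
        abs_of_nonneg (Real.sqrt_nonneg _), mul_comm]
      gcongr
      exact (norm_exp_sub_exp_le u v).trans huv
    calc ‖littlewood a (node N j) - littlewood b (node N j)‖
        = ‖(littlewood a (node N j) - Mu) + (Mu - Mv) - (littlewood b (node N j) - Mv)‖ := by
          congr 1; ring
      _ ≤ ‖(littlewood a (node N j) - Mu) + (Mu - Mv)‖ + ‖littlewood b (node N j) - Mv‖ :=
          norm_sub_le _ _
      _ ≤ (‖littlewood a (node N j) - Mu‖ + ‖Mu - Mv‖) + ‖littlewood b (node N j) - Mv‖ := by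
          gcongr
          exact norm_add_le _ _
      _ ≤ (δ * Real.sqrt N + δ * Real.sqrt N) + δ * Real.sqrt N := by gcongr
      _ = 3 * δ * Real.sqrt N := by ring
  have := card_le_of_code _ code hx hx1 hfib
  rw [Nat.card_eq_fintype_card, Fintype.card_subtype]
  refine this.trans (le_of_eq ?_)
  congr 1
  simp [← pow_two, ← pow_mul, W]

end Vale.Agent.P110
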