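import Mathlib

namespace Vale.Agent.P110

open Metric Set

/-- A zero-free function of almost constant modulus on the real line has almost linear phase. -/
lemma exists_linear_phase {G : ℂ → ℂ} {R ε : ℝ} (hR : 4 ≤ R) (hG : Differentiable ℂ G)
    (hε0 : 0 ≤ ε) (hε : ε ≤ 1 / 8)
    (hb : ∀ w ∈ ball (0 : ℂ) R, Real.exp (-2 * R) / 4 ≤ ‖G w‖ ∧ ‖G w‖ ≤ 2 * Real.exp R)
    (hreal : ∀ x : ℝ, |‖G x‖ - 1| ≤ ε) :
    ∃ α β : ℝ, |α| ≤ 4 ∧ |β| ≤ 16 ∧ ∀ x : ℝ, |x| < R / 4 →
      256 * x ^ 2 / R + 5 * ε ≤ 1 →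
      ‖G x - Complex.exp (((α + β * x : ℝ) : ℂ) * Complex.I)‖
        ≤ 512 * x ^ 2 / R + 11 * ε := by
  have hR0 : 0 < R := by linarith
  have hne : ∀ w ∈ ball (0 : ℂ) R, G w ≠ 0 := by
    intro w hw h0
    have := (hb w hw).1
    have := Real.exp_pos (-2 * R)
    simp [h0] at *
    linarith
  have hcd : ContDiff ℂ (⊤ : ℕ∞) G := hG.contDiff
  have hdG : Differentiable ℂ (deriv G) := by
    intro w
    exact ((hG.analyticAt w).deriv).differentiableAt
  have hdiv : DifferentiableOn ℂ (fun w => deriv G w / G w) (ball 0 R) :=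
    hdG.differentiableOn.div hG.differentiableOn hne
  obtain ⟨f, hf0, hf⟩ := hdiv.isExactOn_ball.with_val_at 0 0
  have hfd : DifferentiableOn ℂ f (ball 0 R) := fun w hw =>
    (hf w hw).differentiableAt.differentiableWithinAt
  have hG0 : G 0 ≠ 0 := hne 0 (mem_ball_self hR0)
  have hrep : ∀ w ∈ ball (0 : ℂ) R, G w = G 0 * Complex.exp (f w) := by
    intro w hw
    have hder : ∀ u ∈ ball (0 : ℂ) R,
        HasDerivWithinAt (fun v => G v * Complex.exp (-f v)) 0 (ball 0 R) u := by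
      intro u hu
      have h1 : HasDerivAt G (deriv G u) u := (hG u).hasDerivAt
      have h2 := ((hf u hu).neg).cexp
      refine ((h1.mul h2).congr_deriv ?_).hasDerivWithinAt
      have := hne u hu
      simp only [Pi.neg_apply]
      field_simp
      ring
    have := (convex_ball (0 : ℂ) R).norm_image_sub_le_of_norm_hasDerivWithin_le (C := 0)
      hder (fun _ _ => by simp) (mem_ball_self hR0) hw
    simp only [zero_mul, norm_le_zero_iff, sub_eq_zero, hf0, neg_zero, Complex.exp_zero,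
      mul_one] at this
    rw [← this, mul_assoc, ← Complex.exp_add]
    simp
  have hG0n := hreal 0
  simp only [Complex.ofReal_zero] at hG0n
  obtain ⟨hg1, hg2⟩ := abs_le.1 hG0n
  have hG0pos : 0 < ‖G 0‖ := norm_pos_iff.2 hG0
  have hexp : ∀ w ∈ ball (0 : ℂ) R, Real.exp (f w).re = ‖G w‖ / ‖G 0‖ := by
    intro w hw
    rw [hrep w hw, norm_mul, Complex.norm_exp]
    field_simp
  have hre : MapsTo f (ball 0 R) {z | z.re ≤ 2 * R} := by
    intro w hw
    simp only [mem_ofPred_eq]
    have h1 := hexp w hw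
    have h2 := (hb w hw).2
    have h3 : Real.exp (f w).re ≤ Real.exp R * 4 := by
      rw [h1, div_le_iff₀ hG0pos]
      nlinarith [Real.exp_pos R]
    have h4 : Real.exp R * 4 ≤ Real.exp (2 * R) := by
      rw [two_mul, Real.exp_add]
      gcongr
      linarith [Real.add_one_le_exp R]
    exact Real.exp_le_exp.1 (h3.trans h4)
  have hhalf : ∀ w ∈ ball (0 : ℂ) (R / 2), ‖f w‖ ≤ 4 * R := by
    intro w hw
    have hw' : ‖w‖ < R / 2 := by simpa using hw
    have := Complex.borelCaratheodory_zero (by linarith : 0 < 2 * R) hfd hre hR0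
      (by simpa using (show ‖w‖ < R by linarith)) hf0
    refine this.trans ?_
    rw [div_le_iff₀ (by linarith)]
    nlinarith [norm_nonneg w]
  have hdhalf : DifferentiableOn ℂ f (ball 0 (R / 2)) :=
    hfd.mono (ball_subset_ball (by linarith))
  have hd0 : ‖deriv f 0‖ ≤ 8 := by
    have := Complex.norm_deriv_le_div_of_mapsTo_ball (R₂ := 4 * R) hdhalf
      (fun w hw => by simpa [hf0] using hhalf w hw) (by linarith)
    refine this.trans ?_
    rw [div_le_iff₀ (by linarith)]
    linarith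
  set g : ℂ → ℂ := fun w => f w - w * deriv f 0 with hgdef
  have hg0 : g 0 = 0 := by simp [g, hf0]
  have hgd : DifferentiableOn ℂ g (ball 0 (R / 2)) :=
    hdhalf.sub (differentiableOn_id.mul_const _)
  have hgmaps : MapsTo g (ball 0 (R / 2)) (closedBall (g 0) (8 * R)) := by
    intro w hw
    rw [hg0, mem_closedBall_zero_iff]
    have hw' : ‖w‖ < R / 2 := by simpa using hw
    calc ‖g w‖ ≤ ‖f w‖ + ‖w * deriv f 0‖ := norm_sub_le _ _
      _ ≤ 4 * R + R / 2 * 8 := by
          rw [norm_mul]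
          gcongr
          exact hhalf w hw
      _ = 8 * R := by ring
  have hglit : (fun w => g w - g 0) =o[nhds 0] fun w => ‖w - 0‖ ^ 1 := by
    have h1 : HasDerivAt f (deriv f 0) 0 :=
      (hfd.differentiableAt (ball_mem_nhds _ hR0)).hasDerivAt
    have h2 := h1.isLittleO
    simp only [hf0, sub_zero, smul_eq_mul] at h2
    simp only [pow_one, sub_zero, hg0, g]
    exact h2.norm_right
  have hgb : ∀ w ∈ ball (0 : ℂ) (R / 2), ‖g w‖ ≤ 32 * ‖w‖ ^ 2 / R := by
    intro w hw
    have := Complex.dist_le_mul_div_pow_of_mapsTo_ball_of_isLittleO hgd hgmaps hglit hw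
    rw [hg0, dist_zero_right, dist_zero_right] at this
    refine this.trans (le_of_eq ?_)
    field_simp
    ring_nf
    field_simp
  refine ⟨(G 0).arg, (deriv f 0).im, ?_, ?_, fun x hx hsmall => ?_⟩
  · exact (Complex.abs_arg_le_pi _).trans Real.pi_le_four
  · exact ((Complex.abs_im_le_norm _).trans hd0).trans (by norm_num)
  have hxR : (x : ℂ) ∈ ball (0 : ℂ) (R / 2) := by
    simp [Complex.norm_real]
    linarith
  have hxR' : (x : ℂ) ∈ ball (0 : ℂ) R := ball_subset_ball (by linarith) hxR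
  set e : ℂ := f x - ((deriv f 0).im * x : ℝ) * Complex.I with hedef
  have her : |e.re| ≤ 4 * ε := by
    have h1 := hexp x hxR'
    obtain ⟨ha, hb'⟩ := abs_le.1 (hreal x)
    have : e.re = (f x).re := by simp [e]
    rw [this, abs_le]
    constructor
    · rw [← Real.exp_le_exp, h1, le_div_iff₀ hG0pos]
      have h5 : Real.exp (-(4 * ε)) * (1 + 4 * ε) ≤ 1 := by
        rw [Real.exp_neg, inv_mul_le_iff₀ (Real.exp_pos _), mul_one]
        linarith [Real.add_one_le_exp (4 * ε)]
      nlinarith [Real.exp_pos (-(4 * ε))]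
    · rw [← Real.exp_le_exp, h1, div_le_iff₀ hG0pos]
      nlinarith [Real.add_one_le_exp (4 * ε)]
  have hei : |e.im| ≤ 32 * x ^ 2 / R := by
    have h1 := hgb x hxR
    have h2 : e.im = (g x).im := by
      simp [e, g]
      ring
    rw [h2]
    refine (Complex.abs_im_le_norm _).trans (h1.trans (le_of_eq ?_))
    simp [Complex.norm_real]
  have he : ‖e‖ ≤ 32 * x ^ 2 / R + 4 * ε := by
    refine (Complex.norm_le_abs_re_add_abs_im e).trans ?_
    linarith
  have hx2 : 0 ≤ x ^ 2 / R := by positivity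
  have he1 : ‖e‖ ≤ 1 := by
    refine he.trans ?_
    rw [show 256 * x ^ 2 / R = 256 * (x ^ 2 / R) by ring] at hsmall
    rw [show 32 * x ^ 2 / R = 32 * (x ^ 2 / R) by ring]
    linarith
  set α := (G 0).arg
  set M := Complex.exp (((α + (deriv f 0).im * x : ℝ) : ℂ) * Complex.I)
  have hM : ‖M‖ = 1 := Complex.norm_exp_ofReal_mul_I _
  have hGx : G x = (‖G 0‖ : ℂ) * M * Complex.exp e := by
    rw [hrep x hxR']
    conv_lhs => rw [← Complex.norm_mul_exp_arg_mul_I (G 0)]
    simp only [M, mul_assoc, ← Complex.exp_add]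
    congr 2
    simp [e, α]
    ring
  rw [hGx]
  have h1 : (‖G 0‖ : ℂ) * M * Complex.exp e - M
      = M * ((‖G 0‖ : ℂ) * (Complex.exp e - 1) + ((‖G 0‖ : ℂ) - 1)) := by ring
  rw [h1, norm_mul, hM, one_mul]
  refine (norm_add_le _ _).trans ?_
  rw [norm_mul, ← Complex.ofReal_one, ← Complex.ofReal_sub, Complex.norm_real, Complex.norm_real,
    Real.norm_eq_abs, Real.norm_eq_abs, abs_norm, Complex.ofReal_one]
  have h2 := Complex.norm_exp_sub_one_le he1
  have h3 : ‖G 0‖ * ‖Complex.exp e - 1‖ ≤ (1 + ε) * (2 * ‖e‖) := by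
    gcongr
    linarith
  have h4 : (1 + ε) * (2 * ‖e‖) ≤ 9 / 4 * ‖e‖ := by nlinarith [norm_nonneg e]
  rw [show 512 * x ^ 2 / R = 512 * (x ^ 2 / R) by ring]
  rw [show 32 * x ^ 2 / R = 32 * (x ^ 2 / R) by ring] at he
  linarith

end Vale.Agent.P110
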