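import Vale.Agent.P110.Annulus
import Vale.Agent.P110.LogLinear

namespace Vale.Agent.P110

open Metric

/-- The `j`th point of the `N`th roots of unity. -/
noncomputable def node (N j : ℕ) : ℂ :=
  Complex.exp (2 * Real.pi * Complex.I / N) ^ j

lemma phase_on_window {N : ℕ} {ε R : ℝ} (hN : 0 < N) (hε0 : 0 ≤ ε) (hε : ε ≤ 1 / 8) (hR : 4 ≤ R)
    (hεR : 3 * ε * Real.exp (3 * R) ≤ 1 / 2) {a : Fin N → Bool} (h : IsFlat ε a) (j₀ : ℕ) :
    ∃ α β : ℝ, |α| ≤ 4 ∧ |β| ≤ 16 ∧ ∀ l : ℕ, 2 * Real.pi * l < R / 4 →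
      256 * (2 * Real.pi * l) ^ 2 / R + 5 * ε ≤ 1 →
      ‖littlewood a (node N (j₀ + l)) -
          (Real.sqrt N : ℂ) * Complex.exp (((α + β * (2 * Real.pi * l) : ℝ) : ℂ) * Complex.I)‖
        ≤ (512 * (2 * Real.pi * l) ^ 2 / R + 11 * ε) * Real.sqrt N := by
  have hNR : (0 : ℝ) < N := by exact_mod_cast hN
  have hs : 0 < Real.sqrt N := Real.sqrt_pos.2 hNR
  set z : ℂ → ℂ := fun w => Complex.exp ((2 * Real.pi * j₀ + w) * Complex.I / N) with hz
  set G : ℂ → ℂ := fun w => littlewood a (z w) / (Real.sqrt N : ℂ) with hGdef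
  have hzn : ∀ w : ℂ, ‖z w‖ = Real.exp (-(w.im / N)) := by
    intro w
    simp [z, Complex.norm_exp, neg_div]
  have hG : Differentiable ℂ G := by
    have := differentiable_littlewood a
    fun_prop
  have hb : ∀ w ∈ ball (0 : ℂ) R,
      Real.exp (-2 * R) / 4 ≤ ‖G w‖ ∧ ‖G w‖ ≤ 2 * Real.exp R := by
    intro w hw
    have hw' : |w.im| ≤ R :=
      (Complex.abs_im_le_norm w).trans (le_of_lt (by simpa using hw))
    have hN1 : ((N - 1 : ℕ) : ℝ) ≤ N := by exact_mod_cast N.sub_le 1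
    have hpow : ‖z w‖ ^ (N - 1) = Real.exp ((N - 1 : ℕ) * -(w.im / N)) := by
      rw [hzn, Real.exp_nat_mul]
    have habs : |((N - 1 : ℕ) : ℝ) * -(w.im / N)| ≤ R := by
      rw [abs_mul, abs_neg, abs_div, Nat.abs_cast, Nat.abs_cast]
      calc ((N - 1 : ℕ) : ℝ) * (|w.im| / N) ≤ N * (|w.im| / N) := by gcongr
        _ = |w.im| := by field_simp
        _ ≤ R := hw'
    obtain ⟨h1, h2⟩ := abs_le.1 habs
    have := annulus_bounds hN hε0 (by linarith) hεR h (z := z w)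
      (by rw [hpow]; exact Real.exp_le_exp.2 h1) (by rw [hpow]; exact Real.exp_le_exp.2 h2)
    simp only [G, norm_div, Complex.norm_real, Real.norm_eq_abs, abs_of_pos hs]
    exact ⟨(le_div_iff₀ hs).2 this.1, (div_le_iff₀ hs).2 this.2⟩
  have hreal : ∀ x : ℝ, |‖G x‖ - 1| ≤ ε := by
    intro x
    have := h (z x) (by simp [hzn])
    simpa [G, Complex.norm_real, abs_of_pos hs] using this
  obtain ⟨α, β, hα, hβ, hmain⟩ := exists_linear_phase hR hG hε0 hε hb hreal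
  refine ⟨α, β, hα, hβ, fun l hl hsm => ?_⟩
  have hl0 : (0 : ℝ) ≤ 2 * Real.pi * l := by positivity
  have h1 := hmain (2 * Real.pi * l) (by rwa [abs_of_nonneg hl0]) hsm
  have hnode : z ((2 * Real.pi * l : ℝ) : ℂ) = node N (j₀ + l) := by
    rw [node, ← Complex.exp_nat_mul]
    simp only [z]
    congr 1
    push_cast
    ring
  have hG' : G ((2 * Real.pi * l : ℝ) : ℂ) = littlewood a (node N (j₀ + l)) / (Real.sqrt N : ℂ) := by
    simp only [G, hnode]
  rw [hG'] at h1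
  set M := Complex.exp (((α + β * (2 * Real.pi * l) : ℝ) : ℂ) * Complex.I)
  have hsC : (Real.sqrt N : ℂ) ≠ 0 := by exact_mod_cast hs.ne'
  have : littlewood a (node N (j₀ + l)) - (Real.sqrt N : ℂ) * M
      = (Real.sqrt N : ℂ) * (littlewood a (node N (j₀ + l)) / (Real.sqrt N : ℂ) - M) := by
    field_simp
  rw [this, norm_mul, Complex.norm_real, Real.norm_eq_abs, abs_of_pos hs,
    mul_comm (Real.sqrt (N : ℝ))]
  gcongr

end Vale.Agent.P110
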